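import Mathlib
import Vale.Agent.Lib.P162.Defs
import Vale.Agent.Lib.P162.RDefs
import Vale.Agent.Lib.P162.helper95.KmatBasic
import Vale.Agent.Lib.P162.helper36.MoveInj

/-!
# P162, pool job R8 (second copy, helper90): the defect of the new card contracts

`defect_contract_of`: with the lumping identity (R1) and the commutation identity (R2) as
hypotheses, `defect h j (t + s) z <= eta * defect h j t z` when `defect h j s u <= eta` for all
injective `u`.  The computation is done for abstract kernels (`contract_abs`) and then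
instantiated.
-/

namespace Vale.Agent.Lib.P162.H90

open Finset BigOperators

/-- Abstract resampled kernel: the old coordinates move by `X`, the new coordinate is uniform
off the old ones (`N` is the number of free positions). -/
noncomputable def res {α : Type} [DecidableEq α] (j : ℕ) (N : ℝ)
    (X : (Fin j → α) → (Fin j → α) → ℝ) (z y : Fin (j + 1) → α) : ℝ :=
  if ∀ i : Fin j, y 0 ≠ y i.succ then X (Fin.tail z) (Fin.tail y) / N else 0

theorem sum_cons {α : Type} [Fintype α] [DecidableEq α] (k : ℕ)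
    (f : (Fin (k + 1) → α) → ℝ) :
    ∑ y : Fin (k + 1) → α, f y = ∑ q : α, ∑ y' : Fin k → α, f (Fin.cons q y') := by
  rw [← Fintype.sum_prod_type']
  refine Fintype.sum_equiv (Fin.consEquiv (fun _ : Fin (k + 1) => α)).symm _ _ ?_
  intro y
  rw [Fin.consEquiv_symm_apply, Fin.cons_self_tail]

theorem card_avoid {α : Type} [Fintype α] [DecidableEq α] (j : ℕ) (w : Fin j → α)
    (hw : Function.Injective w) :
    (univ.filter (fun p : α => ∀ i, p ≠ w i)).card = Fintype.card α - j := by
  have e : univ.filter (fun p : α => ∀ i, p ≠ w i) = (univ.image w)ᶜ := by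
    ext p
    simp only [Finset.mem_filter, Finset.mem_univ, true_and, Finset.mem_compl, Finset.mem_image,
      not_exists]
    constructor
    · intro hp i hi
      exact hp i hi.symm
    · intro hp i hi
      exact hp i hi.symm
  rw [e, Finset.card_compl, Finset.card_image_of_injective _ hw, Finset.card_univ,
    Fintype.card_fin]

section abs

variable {α : Type} [Fintype α] [DecidableEq α] (j : ℕ) (N : ℝ)

/-- (ii): the difference has zero sum over the new coordinate. -/
theorem sig_sum_zero
    (P : (Fin (j + 1) → α) → ℝ) (L : (Fin j → α) → (Fin j → α) → ℝ) (z : Fin (j + 1) → α)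
    (hlump : ∀ v : Fin j → α, ∑ q : α, P (Fin.cons q v) = L (Fin.tail z) v)
    (hcard : ∀ w : Fin j → α, L (Fin.tail z) w ≠ 0 →
      ((univ.filter (fun p : α => ∀ i, p ≠ w i)).card : ℝ) = N)
    (hN : N ≠ 0) (w : Fin j → α) :
    ∑ p : α, (P (Fin.cons p w) - res j N L z (Fin.cons p w)) = 0 := by
  rw [Finset.sum_sub_distrib, hlump w]
  have e : ∀ p : α, res j N L z (Fin.cons p w) =
      if ∀ i, p ≠ w i then L (Fin.tail z) w / N else 0 := by
    intro p
    simp only [res, Fin.cons_zero, Fin.cons_succ, Fin.tail_cons]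
  rw [Finset.sum_congr rfl (fun p _ => e p), ← Finset.sum_filter, Finset.sum_const,
    nsmul_eq_mul]
  by_cases h0 : L (Fin.tail z) w = 0
  · rw [h0]; simp
  · rw [hcard w h0]
    field_simp
    ring

/-- (iii): the resampled law evolves by the big kernel. -/
theorem res_evolve
    (Q : (Fin (j + 1) → α) → (Fin (j + 1) → α) → ℝ)
    (L M LM : (Fin j → α) → (Fin j → α) → ℝ)
    (hLM : ∀ v y, LM v y = ∑ w, L v w * M w y)
    (hcomm : ∀ (w : Fin j → α) (y : Fin (j + 1) → α),
      ∑ p ∈ univ.filter (fun p : α => ∀ i, p ≠ w i), Q (Fin.cons p w) y =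
        if ∀ i : Fin j, y 0 ≠ y i.succ then M w (Fin.tail y) else 0)
    (z y : Fin (j + 1) → α) :
    ∑ u, res j N L z u * Q u y = res j N LM z y := by
  rw [sum_cons, Finset.sum_comm]
  have e : ∀ w : Fin j → α, ∑ q : α, res j N L z (Fin.cons q w) * Q (Fin.cons q w) y =
      L (Fin.tail z) w / N * (if ∀ i : Fin j, y 0 ≠ y i.succ then M w (Fin.tail y) else 0) := by
    intro w
    rw [← hcomm w y, Finset.mul_sum, Finset.sum_filter]
    refine Finset.sum_congr rfl ?_
    intro q _
    simp only [res, Fin.cons_zero, Fin.cons_succ, Fin.tail_cons]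
    split_ifs
    · rfl
    · rw [zero_mul]
  rw [Finset.sum_congr rfl (fun w _ => e w)]
  unfold res
  by_cases hc : ∀ i : Fin j, y 0 ≠ y i.succ
  · rw [if_pos hc, hLM, Finset.sum_div]
    refine Finset.sum_congr rfl ?_
    intro w _
    rw [if_pos hc]
    ring
  · rw [if_neg hc]
    refine Finset.sum_eq_zero ?_
    intro w _
    rw [if_neg hc, mul_zero]

/-- (iv): the difference is orthogonal to every resampled kernel. -/
theorem sig_res_zero
    (sig : (Fin (j + 1) → α) → ℝ) (M : (Fin j → α) → (Fin j → α) → ℝ)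
    (hsig : ∀ w : Fin j → α, ∑ p : α, sig (Fin.cons p w) = 0)
    (y : Fin (j + 1) → α) :
    ∑ u, sig u * res j N M u y = 0 := by
  rw [sum_cons, Finset.sum_comm]
  refine Finset.sum_eq_zero ?_
  intro w _
  have e : ∀ q : α, sig (Fin.cons q w) * res j N M (Fin.cons q w) y =
      sig (Fin.cons q w) *
        (if ∀ i : Fin j, y 0 ≠ y i.succ then M w (Fin.tail y) / N else 0) := by
    intro q
    simp only [res, Fin.tail_cons]
  rw [Finset.sum_congr rfl (fun q _ => e q), ← Finset.sum_mul, hsig w, zero_mul]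

/-- (v): the abstract contraction. -/
theorem contract_abs (η : ℝ)
    (P Q PQ : (Fin (j + 1) → α) → (Fin (j + 1) → α) → ℝ)
    (L M LM : (Fin j → α) → (Fin j → α) → ℝ)
    (z : Fin (j + 1) → α) (hN : N ≠ 0)
    (hPQ : ∀ y, PQ z y = ∑ u, P z u * Q u y)
    (hLM : ∀ v y, LM v y = ∑ w, L v w * M w y)
    (hlump : ∀ v : Fin j → α, ∑ q : α, P z (Fin.cons q v) = L (Fin.tail z) v)
    (hcomm : ∀ (w : Fin j → α) (y : Fin (j + 1) → α),
      ∑ p ∈ univ.filter (fun p : α => ∀ i, p ≠ w i), Q (Fin.cons p w) y =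
        if ∀ i : Fin j, y 0 ≠ y i.succ then M w (Fin.tail y) else 0)
    (hcard : ∀ w : Fin j → α, L (Fin.tail z) w ≠ 0 →
      ((univ.filter (fun p : α => ∀ i, p ≠ w i)).card : ℝ) = N)
    (hsupp : ∀ u, P z u - res j N L z u ≠ 0 → ∑ y, |Q u y - res j N M u y| ≤ η) :
    ∑ y, |PQ z y - res j N LM z y| ≤ η * ∑ u, |P z u - res j N L z u| := by
  have h2 : ∀ w : Fin j → α,
      ∑ p : α, (P z (Fin.cons p w) - res j N L z (Fin.cons p w)) = 0 :=
    sig_sum_zero j N (P z) L z hlump hcard hN
  have h4 : ∀ y, ∑ u, (P z u - res j N L z u) * res j N M u y = 0 :=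
    sig_res_zero j N (fun u => P z u - res j N L z u) M h2
  have h5 : ∀ y, PQ z y - res j N LM z y =
      ∑ u, (P z u - res j N L z u) * (Q u y - res j N M u y) := by
    intro y
    rw [hPQ y, ← res_evolve j N Q L M LM hLM hcomm z y]
    have e : ∑ u, (P z u - res j N L z u) * (Q u y - res j N M u y) =
        ∑ u, (P z u - res j N L z u) * Q u y -
          ∑ u, (P z u - res j N L z u) * res j N M u y := by
      rw [← Finset.sum_sub_distrib]
      refine Finset.sum_congr rfl ?_
      intro u _
      ring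
    rw [e, h4 y, sub_zero, ← Finset.sum_sub_distrib]
    refine Finset.sum_congr rfl ?_
    intro u _
    ring
  calc ∑ y, |PQ z y - res j N LM z y|
      = ∑ y, |∑ u, (P z u - res j N L z u) * (Q u y - res j N M u y)| := by
        refine Finset.sum_congr rfl ?_
        intro y _
        rw [h5 y]
    _ ≤ ∑ y, ∑ u, |P z u - res j N L z u| * |Q u y - res j N M u y| := by
        refine Finset.sum_le_sum ?_
        intro y _
        refine (Finset.abs_sum_le_sum_abs _ _).trans (le_of_eq ?_)
        refine Finset.sum_congr rfl ?_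
        intro u _
        rw [abs_mul]
    _ = ∑ u, |P z u - res j N L z u| * ∑ y, |Q u y - res j N M u y| := by
        rw [Finset.sum_comm]
        refine Finset.sum_congr rfl ?_
        intro u _
        rw [Finset.mul_sum]
    _ ≤ ∑ u, |P z u - res j N L z u| * η := by
        refine Finset.sum_le_sum ?_
        intro u _
        by_cases h0 : P z u - res j N L z u = 0
        · rw [h0, abs_zero, zero_mul, zero_mul]
        · exact mul_le_mul_of_nonneg_left (hsupp u h0) (abs_nonneg _)
    _ = η * ∑ u, |P z u - res j N L z u| := by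
        rw [← Finset.sum_mul, mul_comm]

end abs

theorem inj_of_cond {α : Type} (j : ℕ) (u : Fin (j + 1) → α)
    (h1 : ∀ i : Fin j, u 0 ≠ u i.succ) (h2 : Function.Injective (Fin.tail u)) :
    Function.Injective u := by
  have e : u = Fin.cons (u 0) (Fin.tail u) := (Fin.cons_self_tail u).symm
  rw [e, Fin.cons_injective_iff]
  refine ⟨?_, h2⟩
  rintro ⟨i, hi⟩
  exact h1 i hi.symm

/-- Job R8 in hypothesis form (R1 = `hlump`, R2 = `hcomm`). -/
theorem defect_contract_of (h j : ℕ) [NeZero h]
    (hlump : ∀ (s : ℕ) (z : Fin (j + 1) → ZMod (2 * h)) (v : Fin j → ZMod (2 * h)),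
      ∑ q : ZMod (2 * h), (Kmat h (j + 1) ^ s) z (Fin.cons q v : Fin (j + 1) → ZMod (2 * h)) =
        (Kmat h j ^ s) (Fin.tail z) v)
    (hcomm : ∀ (s : ℕ) (w : Fin j → ZMod (2 * h)) (y : Fin (j + 1) → ZMod (2 * h)),
      ∑ p ∈ univ.filter (fun p : ZMod (2 * h) => ∀ i, p ≠ w i),
        (Kmat h (j + 1) ^ s) (Fin.cons p w : Fin (j + 1) → ZMod (2 * h)) y =
        if ∀ i : Fin j, y 0 ≠ y i.succ then (Kmat h j ^ s) w (Fin.tail y) else 0)
    (s : ℕ) (η : ℝ)
    (hη : ∀ u : Fin (j + 1) → ZMod (2 * h), Function.Injective u → defect h j s u ≤ η)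
    (z : Fin (j + 1) → ZMod (2 * h)) (hz : Function.Injective z) (t : ℕ) :
    defect h j (t + s) z ≤ η * defect h j t z := by
  have hinj : ∀ c : ZMod h → Bool, Function.Injective (move h c) := H36.move_injective h
  have hcardle : j + 1 ≤ 2 * h := by
    have := Fintype.card_le_of_injective z hz
    rwa [Fintype.card_fin, ZMod.card] at this
  have hN : ((2 * h : ℝ) - j) ≠ 0 := by
    have h1 : ((j + 1 : ℕ) : ℝ) ≤ ((2 * h : ℕ) : ℝ) := by exact_mod_cast hcardle
    push_cast at h1
    intro h0
    linarith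
  have htz : Function.Injective (Fin.tail z) := by
    intro a b hab
    exact Fin.succ_injective _ (hz hab)
  have hPQ : ∀ y, (Kmat h (j + 1) ^ (t + s)) z y =
      ∑ u, (Kmat h (j + 1) ^ t) z u * (Kmat h (j + 1) ^ s) u y := by
    intro y
    rw [pow_add, Matrix.mul_apply]
  have hLM : ∀ v y, (Kmat h j ^ (t + s)) v y = ∑ w, (Kmat h j ^ t) v w * (Kmat h j ^ s) w y := by
    intro v y
    rw [pow_add, Matrix.mul_apply]
  have hcard : ∀ w : Fin j → ZMod (2 * h), (Kmat h j ^ t) (Fin.tail z) w ≠ 0 →
      ((univ.filter (fun p : ZMod (2 * h) => ∀ i, p ≠ w i)).card : ℝ) = (2 * h : ℝ) - j := by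
    intro w hw
    have hwi : Function.Injective w := H95.Kmat_pow_support h j hinj (Fin.tail z) htz t w hw
    rw [card_avoid j w hwi, ZMod.card, Nat.cast_sub (by omega)]
    push_cast
    ring
  have hsupp : ∀ u : Fin (j + 1) → ZMod (2 * h),
      (Kmat h (j + 1) ^ t) z u - res j ((2 * h : ℝ) - j) (Kmat h j ^ t) z u ≠ 0 →
      ∑ y, |(Kmat h (j + 1) ^ s) u y - res j ((2 * h : ℝ) - j) (Kmat h j ^ s) u y| ≤ η := by
    intro u hu
    have hui : Function.Injective u := by
      by_contra hni
      apply hu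
      have ha : (Kmat h (j + 1) ^ t) z u = 0 := by
        by_contra hne
        exact hni (H95.Kmat_pow_support h (j + 1) hinj z hz t u hne)
      have hb : res j ((2 * h : ℝ) - j) (Kmat h j ^ t) z u = 0 := by
        unfold res
        by_cases hc : ∀ i : Fin j, u 0 ≠ u i.succ
        · rw [if_pos hc]
          have h0 : (Kmat h j ^ t) (Fin.tail z) (Fin.tail u) = 0 := by
            by_contra hne
            exact hni (inj_of_cond j u hc
              (H95.Kmat_pow_support h j hinj (Fin.tail z) htz t (Fin.tail u) hne))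
          rw [h0, zero_div]
        · rw [if_neg hc]
      rw [ha, hb, sub_zero]
    exact hη u hui
  exact contract_abs j ((2 * h : ℝ) - j) η (fun a b => (Kmat h (j + 1) ^ t) a b)
    (fun a b => (Kmat h (j + 1) ^ s) a b) (fun a b => (Kmat h (j + 1) ^ (t + s)) a b)
    (fun a b => (Kmat h j ^ t) a b) (fun a b => (Kmat h j ^ s) a b)
    (fun a b => (Kmat h j ^ (t + s)) a b) z hN hPQ hLM (hlump t z) (hcomm s) hcard hsupp

end Vale.Agent.Lib.P162.H90
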